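import Vale.Agent.Lib.P013.Large

/-!
# P013: exact value of Jacobsthal's function for `n = a * b` when `b` has only large prime
factors

Let `j_t(a)` be the least `m` such that every `m` consecutive integers contain at least
`t + 1` integers coprime to `a` (so `j_0 = j`).  For coprime positive integers `a`, `b` and
`t = ω(b)`:

* `j(a * b) ≥ j_t(a)` always;
* `j(a * b) = j_t(a)` as soon as every prime factor of `b` is at least `j_t(a)`;
* `a * ⌊t / φ(a)⌋ < j_t(a) ≤ a * (⌊t / φ(a)⌋ + 1)` for all `a ≥ 1` and `t ≥ 0`.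
-/

namespace Vale.Agent.Results.P013.LargePrimesExact

open Vale.Agent.Lib.P013

theorem result :
    (∀ a b : ℕ, 0 < a → 0 < b → Nat.Coprime a b →
      jacobsthalOrd a b.primeFactors.card ≤ jacobsthal (a * b)) ∧
    (∀ a b : ℕ, 0 < a → 0 < b → Nat.Coprime a b →
      (∀ p ∈ b.primeFactors, jacobsthalOrd a b.primeFactors.card ≤ p) →
      jacobsthal (a * b) = jacobsthalOrd a b.primeFactors.card) ∧
    (∀ a t : ℕ, 0 < a →
      a * (t / Nat.totient a) < jacobsthalOrd a t ∧
      jacobsthalOrd a t ≤ a * (t / Nat.totient a + 1)) :=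
  ⟨fun _ _ ha hb hab => ord_le_jacobsthal_mul ha hb hab,
   fun _ _ ha hb hab hlarge => jacobsthal_mul_eq_ord ha hb hab hlarge,
   fun _ t ha => ⟨period_lt_jacobsthalOrd ha t, jacobsthalOrd_le_period ha t⟩⟩

end Vale.Agent.Results.P013.LargePrimesExact
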