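import Vale.Agent.Lib.P013.Minimal

/-!
# P013: exact characterization of the minimal value of Jacobsthal's function

For every `n ≥ 1`: `j(n) ≥ ω(n) + 1`, with equality if and only if every prime factor of `n`
exceeds `ω(n)`.
-/

namespace Vale.Agent.Results.P013.MinimalValueIff

open Vale.Agent.Lib.P013

theorem result :
    ∀ n : ℕ, 0 < n →
      (n.primeFactors.card + 1 ≤ jacobsthal n) ∧
      (jacobsthal n = n.primeFactors.card + 1 ↔
        ∀ p ∈ n.primeFactors, n.primeFactors.card < p) := by
  intro n hn
  refine ⟨card_primeFactors_lt_jacobsthal hn, ?_, ?_⟩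
  · intro h p hp
    by_contra hcon
    have := succ_card_lt_jacobsthal_of_small_prime hn hp (Nat.le_of_not_lt hcon)
    omega
  · intro h
    exact le_antisymm (jacobsthal_le_of_large_primes hn h) (card_primeFactors_lt_jacobsthal hn)

end Vale.Agent.Results.P013.MinimalValueIff
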