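import Vale.Agent.Lib.P013.Sparse

/-!
# P013: a composition inequality for Jacobsthal's function and a linear bound for
integers whose prime factors have small reciprocal sum

* For positive integers `a`, `b` with `j(a) * ∑_{p ∣ b} 1/p < 1`:
  `j(a * b) ≤ j(a) * (ω(b) / (1 - j(a) * ∑_{p ∣ b} 1/p) + 1)`.
* In particular (`a = 1`): if `∑_{p ∣ n} 1/p < 1` then `j(n) ≤ ω(n) / (1 - ∑_{p ∣ n} 1/p) + 1`.
-/

namespace Vale.Agent.Results.P013.SparsePrimesLinear

open Vale.Agent.Lib.P013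

theorem result :
    (∀ a b : ℕ, 0 < a → 0 < b →
      (jacobsthal a : ℝ) * (∑ p ∈ b.primeFactors, (1 : ℝ) / p) < 1 →
      (jacobsthal (a * b) : ℝ) ≤ (jacobsthal a : ℝ) *
        ((b.primeFactors.card : ℝ) /
          (1 - (jacobsthal a : ℝ) * (∑ p ∈ b.primeFactors, (1 : ℝ) / p)) + 1)) ∧
    (∀ n : ℕ, 0 < n → (∑ p ∈ n.primeFactors, (1 : ℝ) / p) < 1 →
      (jacobsthal n : ℝ) ≤
        (n.primeFactors.card : ℝ) / (1 - ∑ p ∈ n.primeFactors, (1 : ℝ) / p) + 1) := by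
  have main : ∀ a b : ℕ, 0 < a → 0 < b →
      (jacobsthal a : ℝ) * (∑ p ∈ b.primeFactors, (1 : ℝ) / p) < 1 →
      (jacobsthal (a * b) : ℝ) ≤ (jacobsthal a : ℝ) *
        ((b.primeFactors.card : ℝ) /
          (1 - (jacobsthal a : ℝ) * (∑ p ∈ b.primeFactors, (1 : ℝ) / p)) + 1) := by
    intro a b ha hb hs
    have h := jacobsthal_mul_le ha hb hs
    have h' : (jacobsthal (a * b) : ℝ) ≤ (jacobsthal a : ℝ) *
        ((⌊(b.primeFactors.card : ℝ) /
          (1 - (jacobsthal a : ℝ) * (∑ p ∈ b.primeFactors, (1 : ℝ) / p))⌋₊ : ℝ) + 1) := by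
      exact_mod_cast h
    refine h'.trans ?_
    have hden : 0 < 1 - (jacobsthal a : ℝ) * (∑ p ∈ b.primeFactors, (1 : ℝ) / p) := by linarith
    have hnn : 0 ≤ (b.primeFactors.card : ℝ) /
        (1 - (jacobsthal a : ℝ) * (∑ p ∈ b.primeFactors, (1 : ℝ) / p)) :=
      div_nonneg (Nat.cast_nonneg _) hden.le
    have hfl := Nat.floor_le hnn
    have hJ : (0 : ℝ) ≤ (jacobsthal a : ℝ) := Nat.cast_nonneg _
    exact mul_le_mul_of_nonneg_left (by linarith) hJ
  refine ⟨main, ?_⟩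
  intro n hn hs
  have h1 : jacobsthal 1 = 1 := by
    have hw : NatWindow 1 1 := fun a => ⟨0, Nat.one_pos, by simp⟩
    have hle := jacobsthal_le Nat.one_pos Nat.one_pos hw
    have hpos := jacobsthal_pos Nat.one_pos
    omega
  have h := main 1 n Nat.one_pos hn (by rw [h1]; simpa using hs)
  rw [h1] at h
  simpa using h

end Vale.Agent.Results.P013.SparsePrimesLinear
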