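import Vale.Agent.Lib.P013.Large
import Vale.Agent.Lib.P013.Minimal
import Vale.Agent.Lib.P013.Sparse

/-!
# P013: three results on Jacobsthal's function, as one statement

The conjunction of the statements of the three other hand-ins of this problem.

1. (Large primes.)  Let `j_t(a)` be the least `m` such that every `m` consecutive integers
   contain at least `t + 1` integers coprime to `a` (so `j_0 = j`).  For coprime positive
   integers `a`, `b` and `t = ω(b)`: `j(a * b) ≥ j_t(a)`; `j(a * b) = j_t(a)` as soon as every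
   prime factor of `b` is at least `j_t(a)`; and
   `a * ⌊t / φ(a)⌋ < j_t(a) ≤ a * (⌊t / φ(a)⌋ + 1)` for all `a ≥ 1` and `t ≥ 0`.
2. (Sparse primes.)  For positive integers `a`, `b` with `j(a) * ∑_{p ∣ b} 1/p < 1`:
   `j(a * b) ≤ j(a) * (ω(b) / (1 - j(a) * ∑_{p ∣ b} 1/p) + 1)`; in particular, if
   `∑_{p ∣ n} 1/p < 1` then `j(n) ≤ ω(n) / (1 - ∑_{p ∣ n} 1/p) + 1`.
3. (Minimal value.)  For every `n ≥ 1`: `j(n) ≥ ω(n) + 1`, with equality if and only if every
   prime factor of `n` exceeds `ω(n)`.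
-/

namespace Vale.Agent.Results.P013.ThreePartialResults

open Vale.Agent.Lib.P013

theorem result :
    ((∀ a b : ℕ, 0 < a → 0 < b → Nat.Coprime a b →
        jacobsthalOrd a b.primeFactors.card ≤ jacobsthal (a * b)) ∧
      (∀ a b : ℕ, 0 < a → 0 < b → Nat.Coprime a b →
        (∀ p ∈ b.primeFactors, jacobsthalOrd a b.primeFactors.card ≤ p) →
        jacobsthal (a * b) = jacobsthalOrd a b.primeFactors.card) ∧
      (∀ a t : ℕ, 0 < a →
        a * (t / Nat.totient a) < jacobsthalOrd a t ∧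
        jacobsthalOrd a t ≤ a * (t / Nat.totient a + 1))) ∧
    ((∀ a b : ℕ, 0 < a → 0 < b →
        (jacobsthal a : ℝ) * (∑ p ∈ b.primeFactors, (1 : ℝ) / p) < 1 →
        (jacobsthal (a * b) : ℝ) ≤ (jacobsthal a : ℝ) *
          ((b.primeFactors.card : ℝ) /
            (1 - (jacobsthal a : ℝ) * (∑ p ∈ b.primeFactors, (1 : ℝ) / p)) + 1)) ∧
      (∀ n : ℕ, 0 < n → (∑ p ∈ n.primeFactors, (1 : ℝ) / p) < 1 →
        (jacobsthal n : ℝ) ≤
          (n.primeFactors.card : ℝ) / (1 - ∑ p ∈ n.primeFactors, (1 : ℝ) / p) + 1)) ∧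
    (∀ n : ℕ, 0 < n →
      (n.primeFactors.card + 1 ≤ jacobsthal n) ∧
      (jacobsthal n = n.primeFactors.card + 1 ↔
        ∀ p ∈ n.primeFactors, n.primeFactors.card < p)) := by
  have main : ∀ a b : ℕ, 0 < a → 0 < b →
      (jacobsthal a : ℝ) * (∑ p ∈ b.primeFactors, (1 : ℝ) / p) < 1 →
      (jacobsthal (a * b) : ℝ) ≤ (jacobsthal a : ℝ) *
        ((b.primeFactors.card : ℝ) /
          (1 - (jacobsthal a : ℝ) * (∑ p ∈ b.primeFactors, (1 : ℝ) / p)) + 1) := by
    intro a b ha hb hs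
    have h := jacobsthal_mul_le ha hb hs
    have h' : (jacobsthal (a * b) : ℝ) ≤ (jacobsthal a : ℝ) *
        ((⌊(b.primeFactors.card : ℝ) /
          (1 - (jacobsthal a : ℝ) * (∑ p ∈ b.primeFactors, (1 : ℝ) / p))⌋₊ : ℝ) + 1) := by
      exact_mod_cast h
    refine h'.trans ?_
    have hden : 0 < 1 - (jacobsthal a : ℝ) * (∑ p ∈ b.primeFactors, (1 : ℝ) / p) := by linarith
    have hnn : 0 ≤ (b.primeFactors.card : ℝ) /
        (1 - (jacobsthal a : ℝ) * (∑ p ∈ b.primeFactors, (1 : ℝ) / p)) :=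
      div_nonneg (Nat.cast_nonneg _) hden.le
    have hfl := Nat.floor_le hnn
    have hJ : (0 : ℝ) ≤ (jacobsthal a : ℝ) := Nat.cast_nonneg _
    exact mul_le_mul_of_nonneg_left (by linarith) hJ
  refine ⟨⟨fun _ _ ha hb hab => ord_le_jacobsthal_mul ha hb hab,
    fun _ _ ha hb hab hlarge => jacobsthal_mul_eq_ord ha hb hab hlarge,
    fun _ t ha => ⟨period_lt_jacobsthalOrd ha t, jacobsthalOrd_le_period ha t⟩⟩,
    ⟨main, ?_⟩, ?_⟩
  · intro n hn hs
    have h1 : jacobsthal 1 = 1 := by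
      have hw : NatWindow 1 1 := fun a => ⟨0, Nat.one_pos, by simp⟩
      have hle := jacobsthal_le Nat.one_pos Nat.one_pos hw
      have hpos := jacobsthal_pos Nat.one_pos
      omega
    have h := main 1 n Nat.one_pos hn (by rw [h1]; simpa using hs)
    rw [h1] at h
    simpa using h
  · intro n hn
    refine ⟨card_primeFactors_lt_jacobsthal hn, ?_, ?_⟩
    · intro h p hp
      by_contra hcon
      have := succ_card_lt_jacobsthal_of_small_prime hn hp (Nat.le_of_not_lt hcon)
      omega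
    · intro h
      exact le_antisymm (jacobsthal_le_of_large_primes hn h) (card_primeFactors_lt_jacobsthal hn)

end Vale.Agent.Results.P013.ThreePartialResults
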